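import Vale.Agent.P281.H167.ML.Iface
import Vale.Agent.P281.H949.MFS.Ker
import Vale.Agent.P281.H156.RC.Clos
import Vale.Agent.P285.H231.PB.Snef

/-! P281, theorem ML: row R (independent differentials). -/

open scoped Manifold ContDiff Topology ComplexOrder Matrix
open Set Filter Vale.Agent.P281 Vale.Agent.P272.K Vale.Agent.P299

set_option linter.all false

noncomputable section

namespace Vale.Agent.P281.H156.ML

open Vale.Agent.P299.D Vale.Agent.P299.H956 Vale.Agent.P281.H716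
open Vale.Agent.P281.H713 Vale.Agent.P281.H167.ML
open Vale.Agent.P281.H368.MFS (IsSemiPos InKer jacI pull)
open Vale.Agent.P281.H949.MFS (inKer_iff ker_eq_range exists_left dV_chart)
open Vale.Agent.P281.H156.RC (chart_v mfd_eq)
open Vale.Agent.P281.H949.SA (De)
open Vale.Agent.P281.H368.GM (De_self atc)

/-! ### the kernel of the Fubini-Study form -/

section fs

variable {n : ℕ} {A : Type*} [Fintype A] {f : A → Cm n → ℂ} {z : Cm n}

lemma fderiv_sum {g : Cm n → ℂ} (hg : DifferentiableAt ℂ g z) (v : Cm n) :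
    fderiv ℂ g z v = ∑ j, v j * dz j g z := by
  have h : v = ∑ j, v j • (Pi.single j 1 : Cm n) := by
    funext k
    rw [Finset.sum_apply]
    simp [Pi.single_apply]
  conv_lhs => rw [h]
  rw [map_sum]
  refine Finset.sum_congr rfl fun j _ => ?_
  rw [map_smul, dz_of_holo hg, smul_eq_mul]

lemma ker_fs (hf : ∀ a, ContDiffAt ℂ ω (f a) z) (b₀ : A) (h0 : f b₀ z ≠ 0) {v : Cm n}
    (hv : ∀ a, fderiv ℂ (fun y => f a y / f b₀ y) z v = 0) (k : Fin n) :
    ∑ j, v j * cHess (fun y => Real.log (∑ a, ‖f a y‖ ^ 2)) z j k = 0 := by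
  have hd : ∀ a, DifferentiableAt ℂ (f a) z := fun a => (hf a).differentiableAt (by simp)
  set U : ℝ := ∑ a, ‖f a z‖ ^ 2 with hU
  have hpos : 0 < U := Finset.sum_pos' (fun a _ => by positivity) ⟨b₀, Finset.mem_univ b₀, by positivity⟩
  have hUC : (U : ℂ) = ∑ a, f a z * cj (f a z) := Vale.Agent.P285.H231.PB.sum_eq z
  have hU0 : (U : ℂ) ≠ 0 := by exact_mod_cast hpos.ne'
  set l : ℂ := (∑ j, v j * dz j (f b₀) z) / f b₀ z with hl
  have h1 : ∀ a, ∑ j, v j * dz j (f a) z = l * f a z := by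
    intro a
    have h2 := hv a
    have hg : DifferentiableAt ℂ (fun y => f a y / f b₀ y) z :=
      ((hf a).div (hf b₀) h0).differentiableAt (by simp)
    have h3 : f a =ᶠ[𝓝 z] fun y => (f a y / f b₀ y) * f b₀ y := by
      filter_upwards [(hd b₀).continuousAt.eventually_ne h0] with y hy
      rw [div_mul_cancel₀ _ hy]
    have h4 : fderiv ℂ (f a) z v = (f a z / f b₀ z) * fderiv ℂ (f b₀) z v := by
      rw [h3.fderiv_eq, fderiv_fun_mul hg (hd b₀)]
      simp only [ContinuousLinearMap.add_apply, ContinuousLinearMap.smul_apply, smul_eq_mul, h2,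
        mul_zero, add_zero]
    rw [fderiv_sum (hd a), fderiv_sum (hd b₀)] at h4
    rw [h4, hl]
    ring
  have h3 : ∀ j, cHess (fun y => Real.log (∑ a, ‖f a y‖ ^ 2)) z j k =
      (U : ℂ)⁻¹ * (∑ a, dz j (f a) z * cj (dz k (f a) z)) - ((U : ℂ) ^ 2)⁻¹ *
        ((∑ a, dz j (f a) z * cj (f a z)) * ∑ a, f a z * cj (dz k (f a) z)) := by
    intro j
    rw [← Vale.Agent.P285.H231.PB.cHess_sum_sq hf, ← Vale.Agent.P285.H231.PB.dzb_sum_sq hf,
      ← Vale.Agent.P285.H231.PB.dz_sum_sq hf]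
    exact C2.cHess_log (u := fun y => ∑ a, ‖f a y‖ ^ 2)
      (Vale.Agent.P285.H231.PB.contDiffAt_sum_sq hf) hpos j k
  have h5 : ∑ j, v j * (∑ a, dz j (f a) z * cj (dz k (f a) z)) =
      l * ∑ a, f a z * cj (dz k (f a) z) := by
    simp_rw [Finset.mul_sum]
    rw [Finset.sum_comm]
    refine Finset.sum_congr rfl fun a _ => ?_
    have := h1 a
    rw [← mul_assoc, ← this, Finset.sum_mul]
    refine Finset.sum_congr rfl fun j _ => by ring
  have h6 : ∑ j, v j * (∑ a, dz j (f a) z * cj (f a z)) = l * U := by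
    rw [hUC]
    simp_rw [Finset.mul_sum]
    rw [Finset.sum_comm]
    refine Finset.sum_congr rfl fun a _ => ?_
    have := h1 a
    rw [← mul_assoc, ← this, Finset.sum_mul]
    refine Finset.sum_congr rfl fun j _ => by ring
  set S : ℂ := ∑ a, f a z * cj (dz k (f a) z) with hS
  calc ∑ j, v j * cHess (fun y => Real.log (∑ a, ‖f a y‖ ^ 2)) z j k
      = (U : ℂ)⁻¹ * (∑ j, v j * (∑ a, dz j (f a) z * cj (dz k (f a) z))) -
        ((U : ℂ) ^ 2)⁻¹ * ((∑ j, v j * (∑ a, dz j (f a) z * cj (f a z))) * S) := by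
        rw [Finset.mul_sum, Finset.sum_mul, Finset.mul_sum, ← Finset.sum_sub_distrib]
        refine Finset.sum_congr rfl fun j _ => ?_
        rw [h3 j]
        ring
    _ = 0 := by
        rw [h5, h6]
        field_simp
        ring

end fs

/-! ### linear algebra -/

section lin

/-- `d` of the functionals `b` have no common kernel -/
lemma exists_sel {d N : ℕ} (b : Fin N → (Cm d →ₗ[ℂ] ℂ))
    (h : ∀ w, (∀ k, b k w = 0) → w = 0) :
    ∃ c : Fin d → Fin N, ∀ w, (∀ i, b (c i) w = 0) → w = 0 := by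
  obtain ⟨κ, a, ha, hs, hli⟩ := exists_linearIndependent' ℂ b
  haveI : Finite κ := Finite.of_injective a ha
  haveI : Fintype κ := Fintype.ofFinite κ
  have hker : ∀ w, (∀ k, b (a k) w = 0) → w = 0 := by
    intro w hw
    refine h w fun k => ?_
    have h1 : b k ∈ Submodule.span ℂ (range (b ∘ a)) := by
      rw [hs]; exact Submodule.subset_span ⟨k, rfl⟩
    have h2 : Submodule.span ℂ (range (b ∘ a)) ≤
        LinearMap.ker (LinearMap.applyₗ w : (Cm d →ₗ[ℂ] ℂ) →ₗ[ℂ] ℂ) := by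
      rw [Submodule.span_le]
      rintro _ ⟨k, rfl⟩
      exact hw k
    exact h2 h1
  have hc1 : Fintype.card κ ≤ d := by
    have h1 := hli.fintype_card_le_finrank
    rwa [Module.finrank_linearMap, Module.finrank_fin_fun, Module.finrank_self, mul_one] at h1
  have hc2 : d ≤ Fintype.card κ := by
    have h1 : Function.Injective (LinearMap.pi fun k => b (a k) : Cm d →ₗ[ℂ] (κ → ℂ)) := by
      rw [injective_iff_map_eq_zero]
      intro w hw
      exact hker w fun k => congrFun hw k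
    have h2 := LinearMap.finrank_le_finrank_of_injective h1
    rwa [Module.finrank_fin_fun, Module.finrank_fintype_fun_eq_card] at h2
  have e : Fin d ≃ κ := Fintype.equivOfCardEq (by rw [Fintype.card_fin]; omega)
  refine ⟨fun i => a (e i), fun w hw => hker w fun k => ?_⟩
  have := hw (e.symm k)
  simpa using this

lemma DD_ne {n p d : ℕ} (hn : n = p + d) {a : Fin p → Cm n} {b : Fin d → Cm n}
    (h : ∀ v : Cm n, (∀ r, ∑ k, a r k * v k = 0) → (∀ r, ∑ k, b r k * v k = 0) → v = 0) :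
    DD hn a b ≠ 0 := by
  intro h0
  obtain ⟨v, hv, h1⟩ := Matrix.exists_mulVec_eq_zero_iff.2 h0
  set σ : Fin p ⊕ Fin d ≃ Fin n := finSumFinEquiv.trans (finCongr hn.symm) with hσ
  have h2 : ∀ r : Fin p ⊕ Fin d, ∑ k, (Sum.elim a b r : Cm n) k * v (σ.symm k) = 0 := by
    intro r
    have h3 := congrFun h1 r
    have h4 : ∑ c, (Sum.elim a b r : Cm n) (σ c) * v c = 0 := h3
    rw [← h4, ← σ.sum_comp]
    refine Finset.sum_congr rfl fun c _ => ?_
    rw [Equiv.symm_apply_apply]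
  have h3 := h (fun k => v (σ.symm k)) (fun r => h2 (Sum.inl r)) (fun r => h2 (Sum.inr r))
  refine hv (funext fun c => ?_)
  have h4 := congrFun h3 (σ c)
  simpa using h4


lemma sum_single {n : ℕ} (T : Cm n →ₗ[ℂ] ℂ) (v : Cm n) :
    ∑ k, T (Pi.single k 1) * v k = T v := by
  have h : v = ∑ j, v j • (Pi.single j 1 : Cm n) := by
    funext k
    rw [Finset.sum_apply]
    simp [Pi.single_apply]
  conv_rhs => rw [h]
  rw [map_sum]
  refine Finset.sum_congr rfl fun j _ => ?_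
  rw [map_smul, smul_eq_mul, mul_comm]

lemma fin_alg {n p d N : ℕ} (hn : n = p + d) {Df : Cm n →L[ℂ] Cm p} {Di : Cm d →L[ℂ] Cm n}
    {A₁ B : Cm n →L[ℂ] Cm n} (hAB : ∀ v, A₁ (B v) = v) (hDf : Function.Surjective Df)
    (hDi : Function.Injective Di) (h0 : ∀ w, Df (Di w) = 0) {u : Fin N → (Cm n →L[ℂ] ℂ)}
    (hu : ∀ w, (∀ b, u b (A₁ (Di w)) = 0) → w = 0) :
    ∃ c : Fin d → Fin N, ∀ (a : Fin p → Cm n) (b : Fin d → Cm n),
      (∀ r k, a r k = Df (B (Pi.single k 1)) r) → (∀ r k, b r k = u (c r) (Pi.single k 1)) →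
      DD hn a b ≠ 0 := by
  have hker : ∀ x, Df x = 0 → ∃ w, Di w = x := by
    have h1 : LinearMap.range (Di : Cm d →ₗ[ℂ] Cm n) = LinearMap.ker (Df : Cm n →ₗ[ℂ] Cm p) := by
      refine Submodule.eq_of_le_of_finrank_eq ?_ ?_
      · rintro _ ⟨w, rfl⟩
        exact h0 w
      · have h3 := LinearMap.finrank_range_add_finrank_ker (Df : Cm n →ₗ[ℂ] Cm p)
        have h4 : LinearMap.range (Df : Cm n →ₗ[ℂ] Cm p) = ⊤ := LinearMap.range_eq_top.2 hDf
        have h5 := LinearMap.finrank_range_of_inj (f := (Di : Cm d →ₗ[ℂ] Cm n)) hDi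
        rw [h4, finrank_top, Module.finrank_fin_fun, Module.finrank_fin_fun] at h3
        rw [h5, Module.finrank_fin_fun]
        omega
    intro x hx
    have h2 : x ∈ LinearMap.range (Di : Cm d →ₗ[ℂ] Cm n) := by rw [h1]; exact hx
    exact h2
  obtain ⟨c, hc⟩ := exists_sel (d := d) (fun b => ((u b).comp (A₁.comp Di)).toLinearMap)
    fun w hw => hu w hw
  refine ⟨c, fun a b ha hb => DD_ne hn fun v hv1 hv2 => ?_⟩
  have h1 : Df (B v) = 0 := by
    funext r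
    have h2 := sum_single ((LinearMap.proj r : Cm p →ₗ[ℂ] ℂ) ∘ₗ (Df.comp B).toLinearMap) v
    refine h2.symm.trans (Eq.trans ?_ (hv1 r))
    refine Finset.sum_congr rfl fun k _ => ?_
    rw [ha r k]
    rfl
  obtain ⟨w, hw⟩ := hker _ h1
  have h3 : w = 0 := by
    refine hc w fun r => ?_
    have h5 := sum_single (u (c r)).toLinearMap v
    have h6 : u (c r) v = 0 := by
      refine h5.symm.trans (Eq.trans ?_ (hv2 r))
      refine Finset.sum_congr rfl fun k _ => ?_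
      rw [hb r k]
      rfl
    show u (c r) (A₁ (Di w)) = 0
    rw [hw, hAB]
    exact h6
  have h4 := hAB v
  rw [← hw, h3, map_zero, map_zero] at h4
  exact h4.symm

end lin

/-! ### geometry -/

section geo

variable {n d N : ℕ} {X F : Type} [TopologicalSpace X] [ChartedSpace (Cm n) X]
  [IsManifold 𝓘(ℂ, Cm n) ω X] [TopologicalSpace F] [ChartedSpace (Cm d) F]
  [IsManifold 𝓘(ℂ, Cm d) ω F]

lemma dif_quot {Q : X → Fin N → ℂ} {H : Fin N → X → ℂ} {x : X}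
    (hH : ∀ b, J.HolAt (Cm n) (H b) x) {b₀ : Fin N} (hb₀ : H b₀ x ≠ 0)
    (hQ : ∀ᶠ z in 𝓝 x, ∃ c : ℂ, c ≠ 0 ∧ ∀ b, Q z b = c * H b z) (b : Fin N) (v : Cm n) :
    J.dif (Cm n) (fun w => Q w b / Q w b₀) x v =
      fderiv ℂ (fun y => H b ((chartAt (Cm n) x : Chart n X).symm y) /
        H b₀ ((chartAt (Cm n) x : Chart n X).symm y)) (chartAt (Cm n) x x) v := by
  have h1 : (fun w => Q w b / Q w b₀) =ᶠ[𝓝 x] fun w => H b w / H b₀ w := by
    filter_upwards [hQ, (hH b₀).continuousAt.eventually_ne hb₀] with w hw hw0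
    obtain ⟨c, hc, h⟩ := hw
    rw [h b, h b₀, mul_div_mul_left _ _ hc]
  have h2 : ContMDiffAt 𝓘(ℂ, Cm n) 𝓘(ℂ, ℂ) ω (fun w => H b w / H b₀ w) x :=
    ContMDiffAt.div₀ (hH b) (hH b₀) hb₀
  have h3 := mfd_eq (atc (n := n) x) h2 v
  rw [De_self] at h3
  have h4 : J.dif (Cm n) (fun w => Q w b / Q w b₀) x =
      (mfderiv 𝓘(ℂ, Cm n) 𝓘(ℂ, ℂ) (fun w => H b w / H b₀ w) x : Cm n →L[ℂ] ℂ) :=
    h1.mfderiv_eq
  rw [h4]
  exact h3

/-- the restriction of a form of rank `d` -/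
lemma joint {θ : D.FormM n X} (hθ : IsForm θ) {ι : F → X} {t : F}
    (hι : ContMDiffAt 𝓘(ℂ, Cm d) 𝓘(ℂ, Cm n) ω ι t)
    (hrk : d ≤ (pull ι θ (chartAt (Cm d) t) (chartAt (Cm d) t t)).rank) {w : Cm d}
    (h2 : InKer (θ (chartAt (Cm n) (ι t)) (chartAt (Cm n) (ι t) (ι t)))
      ((mfderiv 𝓘(ℂ, Cm d) 𝓘(ℂ, Cm n) ι t : Cm d →L[ℂ] Cm n) w)) : w = 0 := by
  have ht := at_chartAt (n := d) t
  set e : Chart d F := chartAt (Cm d) t with he
  set E : Chart n X := chartAt (Cm n) (ι t) with hE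
  have hEx : At E (ι t) := atc (ι t)
  set J : Matrix (Fin n) (Fin d) ℂ := jacF ι e E t with hJ
  have h4 : pull ι θ e (e t) = J.transpose * θ E (E (ι t)) * J.map (starRingEnd ℂ) :=
    pullM_eq hθ hι ht hEx
  have h5 := (mfderiv_eq_jacF hι w).symm
  rw [h4] at hrk
  set P := J.transpose * θ E (E (ι t)) * J.map (starRingEnd ℂ) with hP
  have h6 : Pᵀ *ᵥ w = 0 := by
    rw [hP, Matrix.transpose_mul, Matrix.transpose_mul, Matrix.transpose_transpose,
      ← Matrix.mulVec_mulVec, ← Matrix.mulVec_mulVec, h5, inKer_iff.1 h2, Matrix.mulVec_zero]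
  have h7 := Vale.Agent.P281.H949.MFS.finrank_ker Pᵀ
  rw [Matrix.rank_transpose] at h7
  have h8 : Module.finrank ℂ (LinearMap.ker Pᵀ.mulVecLin) = 0 := by omega
  have h9 := Submodule.finrank_eq_zero.1 h8
  have h10 : w ∈ LinearMap.ker Pᵀ.mulVecLin := h6
  rw [h9] at h10
  exact (Submodule.mem_bot ℂ).1 h10

end geo

/-- **Row R**. -/
theorem rankPart : RankPart := by
  intro n p d N hn X Z Y F _ _ _ _ _ _ _ _ _ _ _ _ j hj f hf i hi Q θ hθ hFS t hrk
  obtain ⟨hj0, hj1, hj2, -⟩ := hj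
  obtain ⟨c₀, hc₀, hloc⟩ := hFS
  obtain ⟨H, ⟨hH, ⟨b₀, hb₀⟩, hQ⟩, hθH⟩ := hloc (j (i t))
  have hQ0 : Q (j (i t)) b₀ ≠ 0 := by
    obtain ⟨c, hc, h⟩ := hQ.self_of_nhds
    rw [h b₀]
    exact mul_ne_zero hc hb₀
  set E : Chart n X := chartAt (Cm n) (j (i t)) with hE
  have hEx : At E (j (i t)) := atc (j (i t))
  have hji : ContMDiffAt 𝓘(ℂ, Cm n) 𝓘(ℂ, Cm n) ω j (i t) := hj0.contMDiffAt
  have hit : ContMDiffAt 𝓘(ℂ, Cm d) 𝓘(ℂ, Cm n) ω i t := hi.hol.contMDiffAt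
  have hfi : ContMDiffAt 𝓘(ℂ, Cm n) 𝓘(ℂ, Cm p) ω f (i t) := hf.contMDiffAt
  have hιt : ContMDiffAt 𝓘(ℂ, Cm d) 𝓘(ℂ, Cm n) ω (fun t => j (i t)) t := hji.comp t hit
  -- the functions
  have hh : ∀ b, ContDiffAt ℂ ω (fun y => H b (E.symm y)) (E (j (i t))) := fun b =>
    chart_v hEx (hH b)
  have hb₀' : H b₀ (E.symm (E (j (i t)))) ≠ 0 := by rw [hEx.left_inv]; exact hb₀
  have hdif := dif_quot hH hb₀ hQ
  -- the derivatives
  obtain ⟨A₁, hA₁⟩ : ∃ A : Cm n →L[ℂ] Cm n,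
    A = mfderiv 𝓘(ℂ, Cm n) 𝓘(ℂ, Cm n) (fun w => E (j w)) (i t) := ⟨_, rfl⟩
  obtain ⟨Dj, hDj⟩ : ∃ A : Cm n →L[ℂ] Cm n, A = mfderiv 𝓘(ℂ, Cm n) 𝓘(ℂ, Cm n) j (i t) := ⟨_, rfl⟩
  obtain ⟨Di, hDi⟩ : ∃ A : Cm d →L[ℂ] Cm n, A = mfderiv 𝓘(ℂ, Cm d) 𝓘(ℂ, Cm n) i t := ⟨_, rfl⟩
  obtain ⟨Df, hDf⟩ : ∃ A : Cm n →L[ℂ] Cm p, A = mfderiv 𝓘(ℂ, Cm n) 𝓘(ℂ, Cm p) f (i t) :=
    ⟨_, rfl⟩
  have hA₁e : ∀ ξ, A₁ ξ = Dj ξ := by
    intro ξ
    rw [hA₁, hDj]
    exact (dV_chart hji hEx ξ).trans (mfderiv_eq_jacF hji ξ).symm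
  have hA₁i : Function.Injective A₁ := by
    intro u u' h
    rw [hA₁e, hA₁e, hDj] at h
    exact hj2 (i t) h
  have hA₁b : Function.Bijective A₁ :=
    ⟨hA₁i, (LinearMap.injective_iff_surjective (f := (A₁ : Cm n →ₗ[ℂ] Cm n))).1 hA₁i⟩
  have hunit : IsUnit A₁ := ContinuousLinearMap.isUnit_iff_bijective.2 hA₁b
  have hinv : ∀ v, A₁ (Ring.inverse A₁ v) = v := fun v =>
    congrArg (fun T : Cm n →L[ℂ] Cm n => T v) (Ring.mul_inverse_cancel A₁ hunit)
  have hιv : ∀ w, (mfderiv 𝓘(ℂ, Cm d) 𝓘(ℂ, Cm n) (fun t => j (i t)) t : Cm d →L[ℂ] Cm n) w =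
      A₁ (Di w) := by
    intro w
    have h1 : mfderiv 𝓘(ℂ, Cm d) 𝓘(ℂ, Cm n) (fun t => j (i t)) t = Dj.comp Di := by
      rw [hDj, hDi]
      exact mfderiv_comp t (hji.mdifferentiableAt (by simp)) (hit.mdifferentiableAt (by simp))
    rw [h1, hA₁e]
    rfl
  have hDfi : ∀ w, Df (Di w) = 0 := by
    intro w
    have h1 : mfderiv 𝓘(ℂ, Cm d) 𝓘(ℂ, Cm p) (fun t => f (i t)) t = Df.comp Di := by
      rw [hDf, hDi]
      exact mfderiv_comp t (hfi.mdifferentiableAt (by simp)) (hit.mdifferentiableAt (by simp))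
    have h2 : (fun s => f (i s)) = fun _ => f (i t) := funext fun s => hi.const s t
    rw [h2, mfderiv_const] at h1
    exact (congrArg (fun T : Cm d →L[ℂ] Cm p => T w) h1).symm
  -- the joint kernel
  have hθf : IsForm θ := fun e e' x h h' => hθ.change e e' x h h'
  have hjoint : ∀ w : Cm d, (∀ b, fderiv ℂ (fun y => H b (E.symm y) / H b₀ (E.symm y))
      (E (j (i t))) (A₁ (Di w)) = 0) → w = 0 := by
    intro w hw
    have h1 := ker_fs hh b₀ hb₀' hw
    refine joint hθf hιt hrk ?_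
    rw [hιv w]
    intro k
    have h2 := hθH.self_of_nhds E hEx
    rw [← hE, h2]
    have h3 := h1 k
    simp only [Matrix.smul_apply, smul_eq_mul]
    calc _ = (c₀ : ℂ) * ∑ j', A₁ (Di w) j' *
          cHess (fun y => Real.log (∑ a, ‖H a (E.symm y)‖ ^ 2)) (E (j (i t))) j' k := by
          rw [Finset.mul_sum]
          refine Finset.sum_congr rfl fun j' _ => by ring
      _ = 0 := by rw [h3, mul_zero]
  obtain ⟨c, hc⟩ := fin_alg hn (N := N) (Df := Df) (Di := Di) (A₁ := A₁) (B := Ring.inverse A₁)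
    hinv (by rw [hDf]; exact hi.submersive t) (by rw [hDi]; exact hi.immersive t) hDfi
    (u := fun b => fderiv ℂ (fun y => H b (E.symm y) / H b₀ (E.symm y)) (E (j (i t)))) hjoint
  refine ⟨b₀, c, hQ0, hc _ _ (fun r k => ?_) (fun r k => ?_)⟩
  · rw [hDf, hA₁]
    rfl
  · have h1 : (mfderiv 𝓘(ℂ, Cm n) 𝓘(ℂ, Cm n) (chartAt (Cm n) (j (i t)) : X → Cm n) (j (i t)) :
        Cm n →L[ℂ] Cm n) = ContinuousLinearMap.id ℂ (Cm n) := by
      refine ContinuousLinearMap.ext fun v => ?_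
      exact De_self (j (i t)) v
    have h2 : rowP Q b₀ c (j (i t)) (j (i t)) r k =
        J.dif (Cm n) (fun w => Q w (c r) / Q w b₀) (j (i t)) ((Ring.inverse (M₀ := Cm n →L[ℂ] Cm n)
          (mfderiv 𝓘(ℂ, Cm n) 𝓘(ℂ, Cm n) (chartAt (Cm n) (j (i t)) : X → Cm n) (j (i t)))
            (Pi.single k 1))) := rfl
    rw [h2, h1]
    have h3 : Ring.inverse (ContinuousLinearMap.id ℂ (Cm n)) = ContinuousLinearMap.id ℂ (Cm n) :=
      Ring.inverse_one (Cm n →L[ℂ] Cm n)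
    rw [h3]
    exact hdif (c r) (Pi.single k 1)

end Vale.Agent.P281.H156.ML
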